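import Mathlib
import Vale.Agent.Lib.P204.Defs
import Vale.Agent.Lib.P204.Main

namespace Vale.Agent.Results.P204.TorusOneVariable

open Vale.Agent.Lib.P204

/-- Donaldson's tamed-to-compatible question on the four-torus `ℝ⁴/ℤ⁴`, for almost complex
structures invariant under the three-torus of translations in the last three coordinates:
if `J` depends only on the first coordinate and is tamed by a symplectic form (a closed two-form
taming `J`, not assumed invariant), then some symplectic form is compatible with `J`
(a closed two-form which tames `J` and is `J`-invariant). -/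
theorem result (J : R4 → End4) (hJ : IsAlmostComplexStructure J)
    (hJinv : ∀ x y : R4, x 0 = y 0 → J x = J y)
    (htamed : ∃ η : R4 → Alt2, IsClosedTwoForm η ∧ Tames η J) :
    ∃ θ : R4 → Alt2, IsClosedTwoForm θ ∧ Tames θ J ∧ IsInvariant θ J := by
  obtain ⟨hJs, hJp, hJ2⟩ := hJ
  obtain ⟨η, ⟨hs, hp, hc⟩, ht⟩ := htamed
  obtain ⟨θ, h1, h2, h3, h4, h5⟩ := main J hJs hJ2 hJp hJinv η hs hp hc ht
  exact ⟨θ, ⟨h1, h2, h3⟩, h4, h5⟩

end Vale.Agent.Results.P204.TorusOneVariable
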